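import Vale.Agent.P237.Quant.TailPartsLink
import Vale.Agent.P237.Quant.RowTables
import Vale.Agent.P237.Quant.EnvelopeTableData.N56
import Vale.Agent.P237.Quant.TailData.N64.tailN64P0
import Vale.Agent.P237.Quant.TailData.N64.tailN64P1
import Vale.Agent.P237.Quant.TailData.N64.tailN64P2
import Vale.Agent.P237.Quant.TailData.N64.tailN64P3
import Vale.Agent.P237.Quant.TailData.N64.tailN64N0
import Vale.Agent.P237.Quant.TailData.N64.tailN64N1

/-!
The tail inequalities of the rows of both sides in dimension 64. Generated.
-/

namespace Vale.Agent.P237.Quant

open TailCert TailData

/-- The tail inequalities of `negRow14` in dimension 64. -/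
theorem negRow14_tailAt64 : negRow14.TailAt 63 := by
  intro P hP
  simp only [negRow14, binsOf, List.mem_cons, List.not_mem_nil, or_false] at hP
  rcases hP with rfl | rfl
  · exact tailBin_negParts tailN64N0_check tailN64N0_parts envTable64_check (by decide +kernel)
  · exact tailBin_negParts tailN64N1_check tailN64N1_parts envTable64_check (by decide +kernel)

/-- The tail inequalities of `posRow55` in dimension 64. -/
theorem posRow55_tailAt64 : posRow55.TailAt 63 := by
  intro P hP
  simp only [posRow55, posRowB, posCuts14, posCuts16, binsOf, List.mem_cons, List.not_mem_nil, or_false] at hP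
  rcases hP with rfl | rfl | rfl | rfl
  · exact tailBin_posParts tailN64P0_check tailN64P0_parts envTable64_check (by decide +kernel)
  · exact tailBin_posParts tailN64P1_check tailN64P1_parts envTable64_check (by decide +kernel)
  · exact tailBin_posParts tailN64P2_check tailN64P2_parts envTable64_check (by decide +kernel)
  · exact tailBin_posParts tailN64P3_check tailN64P3_parts envTable64_check (by decide +kernel)

end Vale.Agent.P237.Quant
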